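import Vale.Agent.P050Z.Bridge
import Vale.Agent.P050Z.Assembly
import Vale.Agent.P050Z.GeoExists

/-!
A counterexample to Sidorenko's conjecture: the complete graph on four vertices with the three
pairs of opposite edges replaced by paths of lengths 3, 4 and 5 (22 vertices, 24 edges).
-/

namespace Vale.Agent.Results.P050.ACounterexample

open Vale.Agent.P050Z

theorem exists_host : ∃ (X : Type) (_ : Finite X) (_ : Nonempty X) (G : SimpleGraph X),
    Vale.Agent.P050.homDensity graphH G <
      Vale.Agent.P050.edgeDensity G ^ Nat.card graphH.edgeSet := by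
  by_contra hcon
  push Not at hcon
  obtain ⟨U, _, m, W, h0, h1, h2, h3, h4⟩ :=
    not_kernel_ineq (7 ^ 6 * 2 ^ 63) (1 / 8) (by norm_num) exists_geo
  exact absurd (kernel_ineq (fun X _ _ Γ => hcon X inferInstance inferInstance Γ) U m W h0 h1
    h2 h3) (not_le.2 h4)

end Vale.Agent.Results.P050.ACounterexample

theorem Vale.Agent.Results.P050.ACounterexample.result :
    (Vale.Agent.P050Z.graphH.IsBipartite ∧ Nat.card Vale.Agent.P050Z.graphH.edgeSet = 24 ∧
      ∃ (X : Type) (_ : Finite X) (_ : Nonempty X) (G : SimpleGraph X),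
        (Nat.card (Vale.Agent.P050Z.graphH →g G) : ℝ) / (Nat.card X : ℝ) ^ 22 <
          (2 * (Nat.card G.edgeSet : ℝ) / (Nat.card X : ℝ) ^ 2) ^ 24) ∧
    ¬ ∀ (V : Type) [Finite V] (H : SimpleGraph V), H.IsBipartite → H.edgeSet.Nonempty →
        ∀ (X : Type) [Finite X] [Nonempty X] (G : SimpleGraph X),
          (2 * (Nat.card G.edgeSet : ℝ) / (Nat.card X : ℝ) ^ 2) ^ Nat.card H.edgeSet ≤
            (Nat.card (H →g G) : ℝ) / (Nat.card X : ℝ) ^ Nat.card V := by
  obtain ⟨X, hX, hX', G, hG⟩ := Vale.Agent.Results.P050.ACounterexample.exists_host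
  have hc := Vale.Agent.P050Z.graphH_card_edges
  refine ⟨⟨Vale.Agent.P050Z.graphH_bipartite, hc, X, hX, hX', G, ?_⟩, fun h => ?_⟩
  · unfold Vale.Agent.P050.homDensity Vale.Agent.P050.edgeDensity at hG
    rw [hc, Nat.card_eq_fintype_card (α := Fin 22), Fintype.card_fin] at hG
    exact hG
  · refine absurd (h (Fin 22) Vale.Agent.P050Z.graphH Vale.Agent.P050Z.graphH_bipartite ?_ X G)
      (not_le.2 hG)
    have : Nonempty Vale.Agent.P050Z.graphH.edgeSet :=
      (Nat.card_pos_iff.1 (by rw [hc]; norm_num)).1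
    exact Set.nonempty_coe_sort.1 this
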